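import Vale.Agent.P184.H38C.Gen

/-!
# The `ℓ¹`-Bass conjecture and maps to Hilbert spaces

* `UBass G` : the universal form of the `ℓ¹`-Bass conjecture for `G`: for each homomorphism
  `g : H → G` and each idempotent matrix `e` over `ℓ¹(H)` there are finitely many elements of
  finite order of `G` such that `τ_y(e) = 0`, unless `g y` is conjugate to one of them.
* `RLip F`, `PropOn F X` : `F` is bounded under right translations, proper on `X`.
* `HilbEmb G` : `G` embeds coarsely in a Hilbert space.
* `InvAt F x` : the distances of the values of `F` are invariant under left translation by a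
  subgroup coamenable in the centralizer of `x`.
* `CenSlow x` : `x` has slow maps (`SlowAt`) as an element of its centralizer.
* `EmbAt x` : some map to a Hilbert space is bounded under right translations, `InvAt x` and
  proper on the class of `x`.
* `Det x` : `x` has infinite order and `G` has property A, or `x` is `Mild`, or `CenSlow` and
  `EmbAt`.  `LocDet x` : for each finite set `S` there is a map to a group, multiplicative on
  `S`, which maps `x` to such an element.
* `UVanish x` : the traces vanish at all preimages of `x` under homomorphisms to `G`.
-/

namespace Vale.Agent.Results.P184.HilbertEmbedding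

open Vale.Agent.P184.Un Vale.Agent.P184F

universe u v

/-- The `ℓ¹`-Bass conjecture for groups which embed coarsely in a Hilbert space and whose elements
have amenable centralizers, in a universal form; vanishing of traces at elements with a map to a
Hilbert space, proper on their class. -/
theorem result :
    -- groups which embed coarsely in a Hilbert space: the conjecture, in the universal form, if
    -- the elements of infinite order have amenable centralizers (or are mild), and the same for
    -- the elements of finite order, up to finitely many classes (or they satisfy `SlowAt`)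
    (∀ (G : Type u) [Group G], HilbAmen G → UBass G) ∧
    -- groups with property A, and the general class
    (∀ (G : Type u) [Group G], PropertyA G ∨ GNice G → UBass G) ∧
    -- direct products
    (∀ (G K : Type u) [Group G] [Group K], UBass G → UBass K → UBass (G × K)) ∧
    -- extensions by finite normal subgroups
    (∀ (G K : Type u) [Group G] [Group K] (π : G →* K), Function.Surjective π →
      (π.ker : Set G).Finite → UBass K → UBass G) ∧
    -- limits
    (∀ (G : Type u) [Group G],
      (∀ S : Finset G, ∃ (H : Type u) (_ : Group H), Lifts H S ∧ UBass H) → UBass G) ∧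
    -- the universal form implies the conjecture
    (∀ (G : Type u) [Group G], UBass G → L1Bass G) ∧
    -- direct products with arbitrary groups
    (∀ (G B : Type u) [Group G] [Group B], UBass B → TorSep B →
      (L1Bass (G × B) ↔ L1Bass G)) ∧
    -- elements of arbitrary groups: the traces vanish at all preimages of `x`
    (∀ (G : Type u) [Group G] (x : G), LocDet x → UVanish x) ∧
    -- a condition for `CenSlow`: some homomorphism from the centralizer of `x` to an amenable
    -- group maps `x` to an element of infinite order
    (∀ (G : Type u) [Group G] (x : G) (A : Type v) [Group A] (f : Cen x →* A),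
      CoAmenable (⊤ : Subgroup A) ⊥ → (∀ z : Cen x, (z : G) = x → ¬ IsOfFinOrder (f z)) →
        CenSlow x) ∧
    -- elements with amenable centralizers of groups which embed coarsely in a Hilbert space
    (∀ (G : Type u) [Group G], HilbEmb G → ∀ (q : ℕ) (e : Mat G q), IsIdem e →
      ∃ B : Finset G, ∀ x : G, CoAmenable (Cen x) ⊥ →
        (¬ IsOfFinOrder x ∨ ∀ b ∈ B, ¬ IsConj b x) → tau (ConjClasses.mk x) e = 0) ∧
    -- finitely many exceptional classes, for arbitrary groups
    (∀ (G L : Type u) [Group G] [Group L] (g : G →* L) (E : Type v) [NormedAddCommGroup E]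
      [InnerProductSpace ℝ E] (F : L → E) (X : Set L), RLip F → PropOn F X →
        (∀ a b, IsConj a b → a ∈ X → b ∈ X) → ∀ (q : ℕ) (e : Mat G q), IsIdem e →
          ∃ B : Finset L, ∀ y : G, g y ∈ X → InvAt F (g y) → (∀ b ∈ B, ¬ IsConj b (g y)) →
            tau (ConjClasses.mk y) e = 0) :=
  ⟨fun _ _ h => uBass_of_gNice (gNice_of_hilbAmen h),
    fun _ _ h => h.elim uBass_of_propertyA uBass_of_gNice,
    fun _ _ _ _ h1 h2 => h1.prod h2,
    fun _ _ _ _ π h1 h2 h3 => UBass.of_finite_ker π h1 h2 h3,
    fun _ _ h => UBass.of_lim h,
    fun _ _ h => h.l1Bass,
    fun _ _ _ _ h1 h2 => bass_prod_uBass h1 h2,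
    fun _ _ _ h => uvAt_of_locDet h,
    fun _ _ _ _ _ f h1 h2 => cenSlow_of_hom h1 f h2,
    fun _ _ h _ e he => by
      obtain ⟨_, _, _, F, hF, hP⟩ := h
      obtain ⟨B, hB⟩ := exists_excD e he (MonoidHom.id _) F hF Set.univ
        (fun _ _ _ _ => Set.mem_univ _) hP
      exact ⟨B, fun x h1 h2 => hB x (Set.mem_univ _) (invAt_of_amen F h1)
        (h2.imp (fun h => cenSlow_of_amen h h1) id)⟩,
    fun _ _ _ _ g _ _ _ F X h1 h2 h3 _ e he => by
      obtain ⟨B, hB⟩ := exists_excD e he g F h1 X h3 h2
      exact ⟨B, fun y h4 h5 h6 => hB y h4 h5 (Or.inr h6)⟩⟩

end Vale.Agent.Results.P184.HilbertEmbedding
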